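import Vale.Agent.P032.S5.H678.Face
import Vale.Agent.P032.S5.H825.End
import Vale.Agent.P032.S5.H205.Contact
import Vale.Agent.P032.S5.H394.Ends
import Vale.Agent.P032.S5.H80.Ray
import Vale.Agent.P032.S5.H843.Core7
import Vale.Agent.P032.S5.H358.NoSpec

/-!
# P032: ends of exact arcs with an effective face

`OEndF T X z v o`: `v` is an end of an exact arc of `S(z)`, `|T z| = 4`, and `X ⊆ T v` is a face of `v`
(no palette on `S(v)` is inside `X`) with `T z ∩ X` the pair of the arc.  The end `v` may have four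
colours.  `Irr.far_face`: the other end of the arc is again an end with a face, unless it is a
two-pair point.
-/

open Set Filter Topology Metric

noncomputable section

namespace Vale.Agent.P032.Six

section General

variable {k : ℕ} {U : Fin k → Set ℂ} {T : ℂ → Set (Fin k)} {X X' Y P A : Set (Fin k)} {z v y : ℂ}
  {o : ℝ}

/-- `v` is an end with face `X` of an exact arc of `S(z)` -/
def OEndF (T : ℂ → Set (Fin k)) (X : Set (Fin k)) (z v : ℂ) (o : ℝ) : Prop :=
  (o = 1 ∨ o = -1) ∧ dist v z = 1 ∧ (T z).ncard = 4 ∧ X.ncard = 3 ∧ Fc T v X ∧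
    (T z ∩ X).ncard = 2 ∧
    ∃ ε > 0, ∀ t ∈ Ioo 0 ε, T (z + (v - z) * cis (-(o * t))) = T z ∩ X

theorem OEndF.dist (h : OEndF T X z v o) : Dist.dist v z = 1 := h.2.1

theorem OEndF.face (h : OEndF T X z v o) : Fc T v X := h.2.2.2.2.1

/-- a clean end is an end with a face -/
theorem OEnd.toF (h : Irr U T) (hv : OEnd T z v o) : OEndF T (T v) z v o := by
  obtain ⟨ho, hd, h4, h3, h2, ε, hε, hg⟩ := hv
  exact ⟨ho, hd, h4, h3, h.fc_three h3.le, h2, ε, hε, hg⟩

/-- an end with face `T v` is a clean end -/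
theorem OEndF.toO (h : OEndF T X z v o) (hX : T v = X) : OEnd T z v o := by
  obtain ⟨ho, hd, h4, h3, -, h2, ε, hε, hg⟩ := h
  subst hX
  exact ⟨ho, hd, h4, h3, h2, ε, hε, hg⟩

/-- every colour of `T z` has partners of `z` off a line: a face of a point of `S(z)` misses at least
two colours of `T z` -/
theorem Irr.face_miss (h : Irr U T) (hy : Dist.dist y z = 1) (hX : Fc T y X)
    (hz : ∀ i ∈ T z, ∃ q, Dist.dist z q = 1 ∧ i ∈ Pal U q ∧ q ≠ y ∧ q + y ≠ 2 * z) :
    2 ≤ (T z \ X).ncard := by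
  by_contra hcon
  push Not at hcon
  have h1 : (T z \ X).ncard ≤ 1 := by omega
  -- `T z ⊆ insert t X`, `t ∈ T z`
  obtain ⟨t, ht, hsub⟩ : ∃ t ∈ T z, T z ⊆ insert t X := by
    by_cases h2 : (T z \ X).Nonempty
    · obtain ⟨t, ht⟩ := h2
      refine ⟨t, ht.1, fun i hi => ?_⟩
      by_cases hiX : i ∈ X
      · exact Or.inr hiX
      · left
        exact (Set.ncard_le_one (Set.toFinite _)).1 h1 i ⟨hi, hiX⟩ t ht
    · obtain ⟨t, ht⟩ := h.ne z
      refine ⟨t, ht, fun i hi => Or.inr ?_⟩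
      by_contra hiX
      exact h2 ⟨i, hi, hiX⟩
  obtain ⟨q, hq, hqt, h3, h4⟩ := hz t ht
  rcases hX.lemmaX h (u := y) (p := z) (by rw [dist_comm]; exact hy) hsub hq hqt with h5 | h5
  · exact h3 h5
  · exact h4 h5

/-- partners of the colours of a centre with two exact arcs, off a line -/
theorem Irr.arcs_off (h : Irr U T) {P Q : Set (Fin k)} {p q : ℂ} (hz : T z ⊆ P ∪ Q)
    (hp : Arc T z p P) (hq : Arc T z q Q) (y : ℂ) :
    ∀ i ∈ T z, ∃ q, Dist.dist z q = 1 ∧ i ∈ Pal U q ∧ q ≠ y ∧ q + y ≠ 2 * z := by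
  intro i hi
  rcases hz hi with h1 | h1
  · obtain ⟨r, hr, hr1, hr2⟩ := hp.exists_off_line (y := y)
    exact ⟨r, by rw [dist_comm]; exact hr.1, h.sub _ (by rw [hr.mem]; exact h1), hr1, hr2⟩
  · obtain ⟨r, hr, hr1, hr2⟩ := hq.exists_off_line (y := y)
    exact ⟨r, by rw [dist_comm]; exact hr.1, h.sub _ (by rw [hr.mem]; exact h1), hr1, hr2⟩

/-- **Effective face.**  `P` a pair of the four coloured centre `z`, `y ∈ S(z)` a point with at most
three colours or a harmless one, `P ⊂ T y` and points with palette `P` accumulate at `y`. -/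
theorem Irr.exists_face (h : Irr U T) (hy : Dist.dist y z = 1)
    (hz : ∀ i ∈ T z, ∃ q, Dist.dist z q = 1 ∧ i ∈ Pal U q ∧ q ≠ y ∧ q + y ≠ 2 * z)
    (hz4 : (T z).ncard = 4) (hPz : P ⊆ T z) (hP2 : P.ncard = 2) (hPy : P ⊂ T y)
    (hacc : ∃ᶠ w in 𝓝 y, T w = P) (hA : (T y).ncard ≤ 3 ∨ ∃ A, Harm T y A) :
    ∃ X, X.ncard = 3 ∧ Fc T y X ∧ T z ∩ X = P := by
  -- it is enough to find a face containing `P`
  suffices hs : ∃ X, X.ncard = 3 ∧ Fc T y X ∧ P ⊆ X by
    obtain ⟨X, h1, h3, h4⟩ := hs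
    refine ⟨X, h1, h3, ?_⟩
    have h5 := h.face_miss hy h3 hz
    have h6 := Set.ncard_inter_add_ncard_sdiff_eq_ncard (T z) X (Set.toFinite _)
    exact (Set.eq_of_subset_of_ncard_le (subset_inter hPz h4) (by omega) (Set.toFinite _)).symm
  rcases hA with h3 | ⟨A, hA⟩
  · have h4 : P.ncard < (T y).ncard := Set.ncard_lt_ncard hPy (Set.toFinite _)
    exact ⟨T y, by omega, h.fc_three h3, hPy.1⟩
  · -- the arc pair is not `P`
    have hAP : A ≠ P := by
      rintro rfl
      obtain ⟨p, hp, hJ⟩ := hA.arc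
      have hpA : T p = A := hJ.self_of_nhdsWithin hp
      obtain ⟨w, hw, hw'⟩ := (hacc.and_eventually (h.no_layer (z := y) (q := p) hp)).exists
      have h5 := hw' (by rw [hpA, hw])
      rw [hw] at h5
      omega
    have hA2 := hA.cardA
    have hG2 : (T y \ P).ncard = 2 := by
      have := Set.ncard_sdiff hPy.1 (Set.toFinite _)
      rw [hA.card, hP2] at this
      exact this
    -- a colour `g` of `A` outside `P`
    obtain ⟨g, hgA, hgP⟩ : ∃ g ∈ A, g ∉ P := by
      by_contra hcon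
      push Not at hcon
      exact hAP (Set.eq_of_subset_of_ncard_le hcon (by omega) (Set.toFinite _))
    -- the other colour
    obtain ⟨e, he, heg⟩ : ∃ e ∈ T y \ P, e ≠ g := by
      by_contra hcon
      push Not at hcon
      have h5 : (T y \ P).ncard ≤ ({g} : Set (Fin k)).ncard :=
        Set.ncard_le_ncard (fun e he => hcon e he) (Set.toFinite _)
      rw [Set.ncard_singleton] at h5
      omega
    refine ⟨insert e P, ?_, fc_harmless (insert_subset he.1 hPy.1) hA.h1 fun h5 => ?_,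
      subset_insert _ _⟩
    · rw [Set.ncard_insert_of_notMem he.2 (Set.toFinite _), hP2]
    · rcases h5 hgA with h6 | h6
      · exact heg h6.symm
      · exact hgP h6

end General

section Six

variable {U : Fin 6 → Set ℂ} {T : ℂ → Set (Fin 6)} {X X' Y P A : Set (Fin 6)} {z v v' y q : ℂ}
  {o o' : ℝ}

/-- at most four colours: three colours, harmless, or a two-pair point -/
theorem Irr.three_harm_or (h : Irr U T) (hmin : Mn U T) (h4 : ∀ z, (T z).ncard ≤ 4)
    (hy : ∀ a b c d, DPt T y a b c d → False) : (T y).ncard ≤ 3 ∨ ∃ A, Harm T y A := by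
  by_cases h3 : (T y).ncard ≤ 3
  · exact Or.inl h3
  · have hy4 : (T y).ncard = 4 := le_antisymm (h4 y) (by omega)
    exact Or.inr (h.harm_of_noD hmin hy4 (h.exists_inside hy4 fun w _ => h4 w) hy)

/-- **The other end of the arc**, with faces: if it is not a two-pair point, it is an end with a
face. -/
theorem OEndF.far (h : Irr U T) (hmin : Mn U T) (h4 : ∀ z, (T z).ncard ≤ 4)
    (hv : OEndF T X z v o) (hq : ∃ p, Arc T z p (T z \ X))
    (hb : ∀ y, Dist.dist y z = 1 → T z ∩ X ⊂ T y → Acc T z (T z ∩ X) y →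
      ∀ a b c d, DPt T y a b c d → False) :
    ∃ l X', 0 < l ∧ l ≤ Real.pi / 3 ∧ OEndF T X' z (z + (v - z) * cis (-(o * l))) (-o) ∧
      T z ∩ X' = T z ∩ X ∧ T z ∩ T (z + (v - z) * cis (-(o * l))) ⊇ T z ∩ X ∧
      ∀ t ∈ Ioo 0 l, T (z + (v - z) * cis (-(o * t))) = T z ∩ X := by
  obtain ⟨ho, hvz, hz4, hX3, hF, hp2, ε, hε, harc⟩ := hv
  have hn : ‖v - z‖ = 1 := by rw [← dist_eq_norm]; exact hvz
  obtain ⟨θ, hθ⟩ := exists_cis hn
  have key : ∀ t : ℝ, z + (v - z) * cis (-(o * t)) = z + cis (θ - o * t) := by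
    intro t
    rw [hθ, sub_eq_add_neg θ, cis_add394]
  obtain ⟨l, hl0, -, hl, hlt, hss⟩ := h.exists_arc (z := z) (P := T z ∩ X) (θ := θ) (o := o)
    (ε := ε) ho hp2 inter_subset_left hε (fun t ht => by rw [← key]; exact harc t ht)
  rw [← key] at hss
  set y := z + (v - z) * cis (-(o * l)) with hy
  have hyz : Dist.dist y z = 1 := by
    rw [dist_eq_norm, hy, add_sub_cancel_left, norm_mul, hn, norm_cis, one_mul]
  -- the arc seen from `y`
  have hback : ∀ t ∈ Ioo 0 l, T (z + (y - z) * cis (-(-o * t))) = T z ∩ X := by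
    intro t ht
    have h5 := hlt (l - t) ⟨by linarith [ht.2], by linarith [ht.1]⟩
    rw [← key] at h5
    rw [← h5]
    congr 1
    rw [hy, add_sub_cancel_left, mul_assoc, ← cis_add394]
    congr 3
    ring
  have hacc : Acc T z (T z ∩ X) y := by
    intro V hV
    have h1 : ∀ᶠ t : ℝ in 𝓝[>] 0, z + (y - z) * cis (-(-o * t)) ∈ V :=
      (tendsto_rot z y (-o)).eventually hV
    obtain ⟨t, ht, htl⟩ := (h1.and (Ioo_mem_nhdsGT hl0)).exists
    exact ⟨_, ht, dist_rot hyz _, h.pair_open hp2 inter_subset_left (hback t htl).subset⟩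
  have hfreq : ∃ᶠ w in 𝓝 y, T w = T z ∩ X := by
    intro hcon
    obtain ⟨w, hw, hw1, hw2⟩ := hacc _ hcon
    exact hw (hw2.self_of_nhdsWithin hw1)
  -- arcs with all colours of `T z`
  obtain ⟨p, hp⟩ : ∃ p, Arc T z p (T z ∩ X) := by
    obtain ⟨w, -, hw1, hw2⟩ := hacc _ univ_mem
    exact ⟨w, hw1, hw2⟩
  obtain ⟨q, hq⟩ := hq
  have hoff := h.arcs_off (P := T z ∩ X) (Q := T z \ X)
    (by rw [Set.inter_union_sdiff]) hp hq y
  obtain ⟨X', g1, g3, g4⟩ := h.exists_face hyz hoff hz4 inter_subset_left hp2 hss hfreq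
    (h.three_harm_or hmin h4 (hb y hyz hss hacc))
  refine ⟨l, X', hl0, hl, ⟨?_, hyz, hz4, g1, g3, ?_, l, hl0, fun t ht => ?_⟩, g4, ?_,
    fun t ht => ?_⟩
  · rcases ho with rfl | rfl
    · right; rfl
    · left; norm_num
  · rw [g4]; exact hp2
  · rw [g4]; exact hback t ht
  · exact subset_inter inter_subset_left (hss.1)
  · rw [key]; exact hlt t ht

end Six

end Vale.Agent.P032.Six
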